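import Vale.Agent.P224.PO.CoreW3
import Vale.Agent.P224.PO.M11.Num
import Vale.Agent.P224.S11.ZeroD
import Vale.Agent.P224.S11.ZeroE
import Vale.Agent.P224.S11.Z11F
import Vale.Agent.P224.SO.OneW
import Vale.Agent.P224.SO.Stab11C
import Vale.Agent.P224.SO.Stab11D
import Vale.Agent.P224.SO.Near11
import Vale.Agent.P224.SO.NearL
import Vale.Agent.P224.PO.R11.Main
import Vale.Agent.P224.PO.R11s.Law

/-!
The sharp volume bound in dimension eleven, with the case of equality.
-/

namespace Vale.Agent.P224.PO.M11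

open MeasureTheory Set Filter Function Module Vale.Agent.P224 Vale.Agent.P224.UE
  Vale.Agent.P224.S11
open scoped Topology RealInnerProductSpace ENNReal ContDiff Manifold

set_option linter.unusedSectionVars false

lemma gam_pos : 0 < gamD := by linarith [gamD_bd.1]

lemma rho_pos : 0 < rhoD := by linarith [rhoD_bd.1]

lemma kap_nonneg : 0 ≤ kapD := by
  unfold kapD
  norm_num

lemma sq_r : √(30 : ℝ) ^ 2 = 30 := Real.sq_sqrt (by norm_num)

lemma num1 : (((11 : ℕ) : ℝ) + 1) ^ 2 * gamD * (24 / 100000) ≤ 1 / 5 * rhoD := by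
  push_cast
  linarith [gamD_bd.2, rhoD_bd.1]

lemma num2 : ((((11 : ℕ) : ℝ) + 1) ^ 2 * (187 / 200) * gamD) ^ 2 * (24 / 100000)
    ≤ (12 * rhoD) ^ 2 := by
  push_cast
  have h1 : (((11 : ℝ) + 1) ^ 2 * (187 / 200) * gamD) ^ 2
      ≤ (((11 : ℝ) + 1) ^ 2 * (187 / 200) * (54085 / 100000)) ^ 2 :=
    pow_le_pow_left₀ (by linarith [gam_pos]) (by linarith [gamD_bd.2]) 2
  have h2 : ((12 : ℝ) * (9768 / 100000)) ^ 2 ≤ (12 * rhoD) ^ 2 :=
    pow_le_pow_left₀ (by norm_num) (by linarith [rhoD_bd.1]) 2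
  refine le_trans ?_ h2
  refine le_trans (mul_le_mul_of_nonneg_right h1 (by norm_num)) ?_
  norm_num

lemma num3 : (((11 : ℕ) : ℝ) + 1) ^ 2 * gamD * (37 / 100000) ≤ 300 / 1000 * rhoD := by
  push_cast
  linarith [gamD_bd.2, rhoD_bd.1]

section

variable {V W M : Type*} [NormedAddCommGroup V] [InnerProductSpace ℝ V] [FiniteDimensional ℝ V]
  [NormedAddCommGroup W] [InnerProductSpace ℝ W] [FiniteDimensional ℝ W]
  [TopologicalSpace M] [ChartedSpace V M]
  [MeasurableSpace V] [BorelSpace V] [MeasurableSpace M] [BorelSpace M]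
  [IsManifold 𝓘(ℝ, V) ∞ M] [CompactSpace M] [T2Space M] [ConnectedSpace M]
  [MeasurableSpace W] [BorelSpace W]

/-- **Dimension eleven**: at most the Clifford volume forces equality and linearity. -/
theorem core (hV : finrank ℝ V = 11) (hW : finrank ℝ W = finrank ℝ V + 2)
    {F : M → W} (hF : SphImm V F) (hmin : ∀ x n, IsUnitNormal V F x n → meanCurv V F x n = 0)
    (hng : ¬ ∃ a : W, a ≠ 0 ∧ ∀ x, ⟪F x, a⟫ = 0)
    (hle : (volM V F).real univ ≤ 345600 / 161051 * √(5 / 11) * sphereVol 11) :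
    (volM V F).real univ = 345600 / 161051 * √(5 / 11) * sphereVol 11 ∧ Injective F ∧
      ∃ (N : M → W) (b : OrthonormalBasis (Fin (11 + 2)) ℝ W) (S : Finset (Fin (11 + 2))),
        ContMDiff 𝓘(ℝ, V) 𝓘(ℝ, W) ∞ N ∧ (∀ x, IsUnitNormal V F x (N x)) ∧ S.card = 7 ∧
        ∀ x, N x = ∑ i, ((if i ∈ S then √30 / 6 else -(1 / (√30 / 6))) * ⟪F x, b i⟫) • b i := by
  have hfin : IsFiniteMeasure (volM V F) := isFiniteMeasure_volM hF
  have hne : Nonempty M := inferInstance
  have hΘ : 4999 / 5000 * (345600 / 161051 * √(5 / 11)) * sphereVol 11 ≤ (volM V F).real univ := by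
    have h := R11.main hV hW hF hmin hng
    rw [least_eq] at h
    have h2 := (ENNReal.ofReal_le_iff_le_toReal (measure_ne_top _ _)).1 h
    have e : (volM V F).real univ = ((volM V F) univ).toReal := rfl
    rw [e]
    linarith
  have hr0 : (0 : ℝ) < √30 := by positivity
  have ha2 : (√(30 : ℝ) / 6) ^ 2 = 5 / 6 := by
    rw [div_pow, sq_r]
    norm_num
  have hlr : ∀ Θ : ℝ, 4999 / 5000 * (345600 / 161051 * √(5 / 11)) ≤ Θ → 904 / 625 ≤ Θ := by
    intro Θ h
    linarith [a_ge]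
  refine core_KW3s (m := 11) (h := 5) (C := 345600 / 161051 * √(5 / 11))
    (Θ1 := 4999 / 5000 * (345600 / 161051 * √(5 / 11)))
    (α := √30 / 6) (r := √30) (w := 5 / 6) (kr := √30 / 30) (w0 := 2)
    (T0 := 34 / 7) (k0 := -(118 / 21))
    (k1 := 74) (B := 120) (c := 24) (q := 10) (g1 := 13) (g' := 121 / 5)
    (a2 := 67 / 72) (b2 := 5 / 3) (c2 := 5 / 72) (a1 := 9 / 10) (c1 := 1 / 10)
    (cc := (2 / 5) * √30) (cd := 7) (lamu := 12) (lamv := 9 / 40)
    (lams := 4) (t1 := 1 / 5) (t1' := 300 / 1000) (κ1 := 12)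
    (t2 := 235 / 10000) (t2' := 9 / 100) (κ2 := 5) (Z := 3 / 100)
    (l := Z11.lT) (Ro := RoT (√30) ll kapD Z11.sT)
    (R0 := R00 (√30) ll kapD) (c0 := √11) (ρ := rhoD) (κ := kapD) (γ := gamD)
    (lu := 1 / 5) (lv := 11 / 500) (cs := 241 / 110) (ρ2 := 2962915725 / 34359738368)
    (κs := 0) (lus := 4044203363 / 68719476736)
    (b0 := 1) (b1 := 8856578263 / 17179869184) (b2' := -(27187645965 / 8589934592))
    (b3 := 18701401045 / 8589934592) (b4 := -(32662317069 / 34359738368)) (b5 := 4298983569 / 17179869184)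
    (b6 := 0) (b7 := 8093897011 / 17179869184) (b8 := 0)
    (l2 := rlH 923589767331840 R11s.rows)
    (u0 := 24 / 100000) (u1 := 37 / 100000)
    (gs0 := 5543 / 100000000 - 12021 / 100000 * (24 / 100000) + 3113 / 12500 * (24 / 100000) ^ 2)
    (gs1 := 5543 / 100000000 - 12021 / 100000 * (37 / 100000) + 3113 / 12500 * (37 / 100000) ^ 2)
    (K := 187 / 200)
    (by norm_num) (by norm_num) hV hW hF hmin hng a_lt_two ?_ hΘ (by norm_num) (by positivity)
    (by rw [ha2]) hr0 (by push_cast; ring) ?_ (by push_cast; norm_num)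
    (by push_cast; norm_num) (by push_cast; norm_num) ?_ (by push_cast; norm_num)
    (by norm_num) (by norm_num) (by push_cast; norm_num) (by norm_num) (by push_cast; norm_num)
    ?_ (by norm_num) (by norm_num)
    (fun d x h h1 h0 hv hS => SO.C11.cls_T h h1 h0 hv hS)
    (fun d x h h1 h0 _ hc hS => SO.N11.nearTg le_rfl le_rfl h h1 h0 hc le_rfl hS)
    (by norm_num) (by norm_num)
    (fun d x h h1 h0 hv hS => SO.C11.cls_S4 h h1 h0 hv hS)
    (fun d x h h1 h0 _ hc hS => SO.N11.nearSl le_rfl h h1 h0 hc le_rfl hS)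
    Z11.reg_lT Z11.ok_lT Z11.w_lT
    (fun N hN T hT => null_RoT hN _ _ _ _ ⟨hT.1.le, hT.2⟩)
    (fun N hN => null_R00 hN _ _ _) Z11.hposR_lT (by positivity) rho_pos
    kap_nonneg gam_pos ?_ ?_ ?_ ?_
    (Z11.flux_lT.trans flux_eq) ?_ (by norm_num) (by norm_num)
    (by push_cast; norm_num) (by push_cast; norm_num) R11s.rows_ok
    (fun e x N y w he hx hN hy hw hxN hyw hs => R11s.hpos_s e x N y w he hx hN hy hw hxN hyw hs)
    (by norm_num) (by norm_num)
    (fun Θ u r h1 h2 hu hT hr1 hr2 => R11s.hlaw_g (hlr Θ h1)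
      (h2.trans (a_le.trans (by norm_num))) (by norm_num) (by norm_num) hu hT hr1 hr2)
    (fun Θ u r h1 h2 hu hT hr1 hr2 => R11s.hlaw_g (hlr Θ h1)
      (h2.trans (a_le.trans (by norm_num))) (by norm_num) (by norm_num) hu hT hr1 hr2)
    (by norm_num)
    (fun N hN b S hS => SO.One11W.one_dev hN (sp_of_hng hng) (by positivity) ha2 b S hS)
    num1 num2 num3 (by push_cast; norm_num) (by push_cast; norm_num) (by push_cast; norm_num)
    (by push_cast; norm_num) hle
  · linarith [a_ge]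
  · -- kr
    have h1 := sq_r
    field_simp
    linarith
  · -- g'
    rw [sq_r]
    push_cast
    norm_num
  · -- cc
    push_cast
    nlinarith [sq_r]
  · push_cast
    linarith [rhoD_bd.2]
  · linarith [rhoD_bd.2]
  · rw [sq_r]
    push_cast
    linarith [rhoD_bd.1]
  · intro x N y w hx hN hy hw hxN hyw
    exact Z11.h0_lT x N y w hx hN hy hw hxN hyw
  · -- cs
    have h1 : (547722 / 100000 : ℝ) ≤ √30 := Real.le_sqrt_of_sq_le (by norm_num)
    push_cast
    linarith

end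

end Vale.Agent.P224.PO.M11
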