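import Vale.Agent.P224.POS.Psd

/-!
Certificate data: Gram matrices 8,9,10,11,12,13 and their positive semidefiniteness.
-/

namespace Vale.Agent.P224.PO.M11

open Vale.Agent.P224.POS

noncomputable section

/-- Gram matrix of block 8 ((u1-E)*sca00), rows of the lower triangle -/
def G8 : List (List Int) := rowsZ 524288 [
  262384,
  145452431844,
  118772662758804570,
  73067862566535972518204,
  24967091417095679316955759162,
  17703386005461591869657234207407170] 0

/-- witness of block 8 -/
def W8 : List (List Nat) := rowsN 65536 [
  33674,
  2378458207,
  214663697250267,
  11116879939361268072,
  688829665859178727508498,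
  46029141717838009580829241108] 0

set_option maxRecDepth 100000 in
theorem psd8 : psdChk 32768 4096 23229 W8 G8 = true := by decide +kernel

/-- Gram matrix of block 9 ((u1-E)*sca10), rows of the lower triangle -/
def G9 : List (List Int) := rowsZ 2097152 [
  1050242,
  2459436043332,
  8723808238263369202,
  15974457272778974903116322] 0

/-- witness of block 9 -/
def W9 : List (List Nat) := rowsN 65536 [
  34049,
  2401326757,
  158725871101102,
  10051019569536382199] 0

set_option maxRecDepth 100000 in
theorem psd9 : psdChk 32768 1024 13012 W9 G9 = true := by decide +kernel

/-- Gram matrix of block 10 ((u1-E)*sca11), rows of the lower triangle -/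
def G10 : List (List Int) := rowsZ 67108864 [
  33557864,
  2363835411272080,
  251247925793396296425916,
  16933826583113836029243463437570] 0

/-- witness of block 10 -/
def W10 : List (List Nat) := rowsN 262144 [
  132692,
  38251358542,
  13413848488061391,
  2743667338371005203617] 0

set_option maxRecDepth 100000 in
theorem psd10 : psdChk 131072 1024 177851 W10 G10 = true := by decide +kernel

/-- Gram matrix of block 11 (r(u1-E)*sca00), rows of the lower triangle -/
def G11 : List (List Int) := rowsZ 1048576 [
  525660,
  626795207528,
  1057772353220003952,
  1036444329161072644183544,
  737273822434847250477771916766,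
  950695320533647196681236449082209840] 0

/-- witness of block 11 -/
def W11 : List (List Nat) := rowsN 131072 [
  67842,
  9228566272,
  1447427270475947,
  163742498857542530391,
  20502894383397232000436844,
  2749985619407813054204882120338] 0

set_option maxRecDepth 100000 in
theorem psd11 : psdChk 65536 4096 43193 W11 G11 = true := by decide +kernel

/-- Gram matrix of block 12 (r(u1-E)*sca10), rows of the lower triangle -/
def G12 : List (List Int) := rowsZ 16777216 [
  8404530,
  156823256443790,
  3933156912580796886968,
  54703677294928987656753580108] 0

/-- witness of block 12 -/
def W12 : List (List Nat) := rowsN 524288 [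
  270184,
  144738816344,
  74753154386633218,
  38458501899149616250101] 0

set_option maxRecDepth 100000 in
theorem psd12 : psdChk 262144 4096 115748 W12 G12 = true := by decide +kernel

/-- Gram matrix of block 13 (r(u1-E)*sca11), rows of the lower triangle -/
def G13 : List (List Int) := rowsZ 536870912 [
  268514978,
  157543752560109208,
  144510183699263192021848408,
  65446536630487498889670721447482738] 0

/-- witness of block 13 -/
def W13 : List (List Nat) := rowsN 65536 [
  33295,
  2395823065,
  163862728991928,
  9558151559350334680] 0

set_option maxRecDepth 100000 in
theorem psd13 : psdChk 32768 4 8108 W13 G13 = true := by decide +kernel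

end

end Vale.Agent.P224.PO.M11
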