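import Vale.Agent.P224.PO.RowsO

/-!
Certificate data in dimension 11: value terms and rows.
-/

namespace Vale.Agent.P224.PO.M11

open Vale.Agent.P224.UE Vale.Agent.P224.POS Vale.Agent.P224.PO

noncomputable section

/-- the rows: integer coefficient and term (family, e, i, j, d, k, l) -/
def rows : List (Int × HTerm) := [
  (-608640, ⟨0, -11, 0, 0, 0, 0, 0⟩),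
  (-6527408, ⟨0, -9, 0, 0, 0, 0, 0⟩),
  (18341296, ⟨0, -8, 0, 0, 0, 0, 0⟩),
  (-80464800, ⟨0, -7, 0, 0, 0, 0, 0⟩),
  (144065464, ⟨0, -6, 0, 0, 0, 0, 0⟩),
  (-217133480, ⟨0, -5, 0, 0, 0, 0, 0⟩),
  (122537040, ⟨0, -4, 0, 0, 0, 0, 0⟩),
  (-97208720, ⟨0, -3, 0, 0, 0, 0, 0⟩),
  (-26728688, ⟨0, -2, 0, 0, 0, 0, 0⟩),
  (-85668432, ⟨0, -1, 0, 0, 0, 0, 0⟩),
  (46443408, ⟨0, 0, 0, 0, 0, 0, 0⟩),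
  (6221672, ⟨0, -11, 2, 0, 0, 0, 0⟩),
  (-51486192, ⟨0, -10, 2, 0, 0, 0, 0⟩),
  (250736536, ⟨0, -9, 2, 0, 0, 0, 0⟩),
  (-705622360, ⟨0, -8, 2, 0, 0, 0, 0⟩),
  (1258058440, ⟨0, -7, 2, 0, 0, 0, 0⟩),
  (-1365275088, ⟨0, -6, 2, 0, 0, 0, 0⟩),
  (863339064, ⟨0, -5, 2, 0, 0, 0, 0⟩),
  (-245229808, ⟨0, -4, 2, 0, 0, 0, 0⟩),
  (-2466888, ⟨1, -9, 1, 0, 0, 0, 0⟩),
  (14920608, ⟨1, -8, 1, 0, 0, 0, 0⟩),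
  (-34305032, ⟨1, -7, 1, 0, 0, 0, 0⟩),
  (-59983480, ⟨1, -6, 1, 0, 0, 0, 0⟩),
  (442215552, ⟨1, -5, 1, 0, 0, 0, 0⟩),
  (-936541976, ⟨1, -4, 1, 0, 0, 0, 0⟩),
  (909007968, ⟨1, -3, 1, 0, 0, 0, 0⟩),
  (-393865272, ⟨1, -2, 1, 0, 0, 0, 0⟩),
  (548136, ⟨3, -11, 0, 0, 0, 0, 0⟩),
  (-141408, ⟨3, -9, 0, 0, 0, 0, 0⟩),
  (18043224, ⟨3, -8, 0, 0, 0, 0, 0⟩),
  (-57323696, ⟨3, -7, 0, 0, 0, 0, 0⟩),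
  (133329344, ⟨3, -6, 0, 0, 0, 0, 0⟩),
  (-137755680, ⟨3, -5, 0, 0, 0, 0, 0⟩),
  (87570440, ⟨3, -4, 0, 0, 0, 0, 0⟩),
  (25146064, ⟨3, -3, 0, 0, 0, 0, 0⟩),
  (20229960, ⟨3, -2, 0, 0, 0, 0, 0⟩),
  (-5550120, ⟨3, -11, 2, 0, 0, 0, 0⟩),
  (30028592, ⟨3, -10, 2, 0, 0, 0, 0⟩),
  (-86748448, ⟨3, -9, 2, 0, 0, 0, 0⟩),
  (131923576, ⟨3, -8, 2, 0, 0, 0, 0⟩),
  (-105279944, ⟨3, -7, 2, 0, 0, 0, 0⟩),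
  (31387320, ⟨3, -6, 2, 0, 0, 0, 0⟩),
  (1007016, ⟨0, -11, 0, 0, 0, 1, 0⟩),
  (1225832, ⟨0, -10, 0, 0, 0, 1, 0⟩),
  (35374744, ⟨0, -9, 0, 0, 0, 1, 0⟩),
  (107450384, ⟨0, -8, 0, 0, 0, 1, 0⟩),
  (383311176, ⟨0, -7, 0, 0, 0, 1, 0⟩),
  (-975543728, ⟨0, -6, 0, 0, 0, 1, 0⟩),
  (1096902520, ⟨0, -5, 0, 0, 0, 1, 0⟩),
  (-691760184, ⟨0, -4, 0, 0, 0, 1, 0⟩),
  (266124320, ⟨0, -3, 0, 0, 0, 1, 0⟩),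
  (466957288, ⟨0, -2, 0, 0, 0, 1, 0⟩),
  (-163008208, ⟨0, -1, 0, 0, 0, 1, 0⟩),
  (-29005248, ⟨0, -11, 1, 0, 1, 0, 0⟩),
  (39206424, ⟨0, -10, 1, 0, 1, 0, 0⟩),
  (-214039536, ⟨0, -9, 1, 0, 1, 0, 0⟩),
  (1196549440, ⟨0, -8, 1, 0, 1, 0, 0⟩),
  (-3997464144, ⟨0, -7, 1, 0, 1, 0, 0⟩),
  (9964668784, ⟨0, -6, 1, 0, 1, 0, 0⟩),
  (-34438401456, ⟨0, -5, 1, 0, 1, 0, 0⟩),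
  (68039537600, ⟨0, -4, 1, 0, 1, 0, 0⟩),
  (-53627279920, ⟨0, -3, 1, 0, 1, 0, 0⟩),
  (-18732478336, ⟨0, -2, 1, 0, 1, 0, 0⟩),
  (-9012944, ⟨0, -11, 1, 1, 0, 0, 0⟩),
  (-632537224, ⟨0, -10, 1, 1, 0, 0, 0⟩),
  (790195912, ⟨0, -9, 1, 1, 0, 0, 0⟩),
  (-3008426896, ⟨0, -8, 1, 1, 0, 0, 0⟩),
  (2453105848, ⟨0, -7, 1, 1, 0, 0, 0⟩),
  (318786344, ⟨0, -5, 1, 1, 0, 0, 0⟩),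
  (-108795128, ⟨0, -4, 1, 1, 0, 0, 0⟩),
  (13497192, ⟨1, -9, 1, 0, 0, 1, 0⟩),
  (-129846744, ⟨1, -8, 1, 0, 0, 1, 0⟩),
  (540832784, ⟨1, -7, 1, 0, 0, 1, 0⟩),
  (-1147939120, ⟨1, -6, 1, 0, 0, 1, 0⟩),
  (1329164040, ⟨1, -5, 1, 0, 0, 1, 0⟩),
  (-794625256, ⟨1, -4, 1, 0, 0, 1, 0⟩),
  (218654224, ⟨1, -3, 1, 0, 0, 1, 0⟩),
  (-1262952, ⟨1, -10, 0, 0, 1, 0, 0⟩),
  (-32676848, ⟨1, -9, 0, 0, 1, 0, 0⟩),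
  (196308864, ⟨1, -8, 0, 0, 1, 0, 0⟩),
  (-1931533528, ⟨1, -7, 0, 0, 1, 0, 0⟩),
  (-24265080, ⟨1, -6, 0, 0, 1, 0, 0⟩),
  (23634314040, ⟨1, -5, 0, 0, 1, 0, 0⟩),
  (-49952048360, ⟨1, -4, 0, 0, 1, 0, 0⟩),
  (-15657654136, ⟨1, -3, 0, 0, 1, 0, 0⟩),
  (155037345480, ⟨1, -2, 0, 0, 1, 0, 0⟩),
  (-107122812992, ⟨1, -1, 0, 0, 1, 0, 0⟩),
  (-37464956672, ⟨1, 0, 0, 0, 1, 0, 0⟩),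
  (2166824, ⟨1, -11, 2, 0, 1, 0, 0⟩),
  (-15583216, ⟨1, -10, 2, 0, 1, 0, 0⟩),
  (52783528, ⟨1, -9, 2, 0, 1, 0, 0⟩),
  (-80475976, ⟨1, -8, 2, 0, 1, 0, 0⟩),
  (77823712, ⟨1, -7, 2, 0, 1, 0, 0⟩),
  (-96009208, ⟨1, -6, 2, 0, 1, 0, 0⟩),
  (59759592, ⟨1, -5, 2, 0, 1, 0, 0⟩),
  (1262952, ⟨1, -10, 0, 1, 0, 0, 0⟩),
  (66507864, ⟨1, -9, 0, 1, 0, 0, 0⟩),
  (685622688, ⟨1, -8, 0, 1, 0, 0, 0⟩),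
  (12308864, ⟨1, -7, 0, 1, 0, 0, 0⟩),
  (-5503774576, ⟨1, -6, 0, 1, 0, 0, 0⟩),
  (2991379208, ⟨1, -5, 0, 1, 0, 0, 0⟩),
  (1621034272, ⟨1, -4, 0, 1, 0, 0, 0⟩),
  (23807424, ⟨1, -1, 0, 1, 0, 0, 0⟩),
  (-2175024, ⟨1, -11, 2, 1, 0, 0, 0⟩),
  (20506520, ⟨1, -10, 2, 1, 0, 0, 0⟩),
  (-91948832, ⟨1, -9, 2, 1, 0, 0, 0⟩),
  (202126832, ⟨1, -8, 2, 1, 0, 0, 0⟩),
  (-228407408, ⟨1, -7, 2, 1, 0, 0, 0⟩),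
  (135344400, ⟨1, -6, 2, 1, 0, 0, 0⟩),
  (-22992328, ⟨1, -5, 2, 1, 0, 0, 0⟩),
  (-1117024, ⟨3, -11, 0, 0, 0, 1, 0⟩),
  (1225832, ⟨3, -10, 0, 0, 0, 1, 0⟩),
  (23631760, ⟨3, -9, 0, 0, 0, 1, 0⟩),
  (108400568, ⟨3, -8, 0, 0, 0, 1, 0⟩),
  (336421632, ⟨3, -7, 0, 0, 0, 1, 0⟩),
  (-933820768, ⟨3, -6, 0, 0, 0, 1, 0⟩),
  (901870760, ⟨3, -5, 0, 0, 0, 1, 0⟩),
  (-615798120, ⟨3, -4, 0, 0, 0, 1, 0⟩),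
  (217171936, ⟨3, -3, 0, 0, 0, 1, 0⟩),
  (638186544, ⟨3, -10, 1, 0, 1, 0, 0⟩),
  (-731377344, ⟨3, -9, 1, 0, 1, 0, 0⟩),
  (799720712, ⟨3, -8, 1, 0, 1, 0, 0⟩),
  (-846949376, ⟨3, -7, 1, 0, 1, 0, 0⟩),
  (287572944, ⟨3, -6, 1, 0, 1, 0, 0⟩),
  (42522472, ⟨3, -5, 1, 0, 1, 0, 0⟩),
  (38029208, ⟨3, -11, 1, 1, 0, 0, 0⟩),
  (-54978784, ⟨3, -10, 1, 1, 0, 0, 0⟩),
  (28038056, ⟨3, -9, 1, 1, 0, 0, 0⟩),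
  (-783934232, ⟨3, -8, 1, 1, 0, 0, 0⟩),
  (4235086856, ⟨3, -7, 1, 1, 0, 0, 0⟩),
  (-6888485384, ⟨3, -6, 1, 1, 0, 0, 0⟩),
  (3786336120, ⟨3, -5, 1, 1, 0, 0, 0⟩),
  (851476288, ⟨3, -4, 1, 1, 0, 0, 0⟩),
  (37120, ⟨5, -10, 1, 0, 0, 0, 0⟩),
  (27678184, ⟨5, -9, 1, 0, 0, 0, 0⟩),
  (182931800, ⟨5, -8, 1, 0, 0, 0, 0⟩),
  (-306929696, ⟨5, -7, 1, 0, 0, 0, 0⟩),
  (-200091600, ⟨5, -6, 1, 0, 0, 0, 0⟩),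
  (807469840, ⟨5, -5, 1, 0, 0, 0, 0⟩),
  (-690679288, ⟨5, -4, 1, 0, 0, 0, 0⟩),
  (142087720, ⟨5, -3, 1, 0, 0, 0, 0⟩),
  (-342928, ⟨0, -11, 0, 0, 0, 0, 1⟩),
  (-3599840, ⟨0, -9, 0, 0, 0, 0, 1⟩),
  (6301712, ⟨0, -8, 0, 0, 0, 0, 1⟩),
  (-27532528, ⟨0, -7, 0, 0, 0, 0, 1⟩),
  (-49887512, ⟨0, -6, 0, 0, 0, 0, 1⟩),
  (288887168, ⟨0, -5, 0, 0, 0, 0, 1⟩),
  (-420364872, ⟨0, -4, 0, 0, 0, 0, 1⟩),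
  (-479800, ⟨0, -11, 0, 0, 0, 2, 0⟩),
  (-1832896, ⟨0, -9, 0, 0, 0, 2, 0⟩),
  (8180040, ⟨0, -8, 0, 0, 0, 2, 0⟩),
  (-67931000, ⟨0, -7, 0, 0, 0, 2, 0⟩),
  (287420472, ⟨0, -6, 0, 0, 0, 2, 0⟩),
  (-795729728, ⟨0, -5, 0, 0, 0, 2, 0⟩),
  (1069543552, ⟨0, -4, 0, 0, 0, 2, 0⟩),
  (-688391520, ⟨0, -3, 0, 0, 0, 2, 0⟩),
  (153704904, ⟨0, -2, 0, 0, 0, 2, 0⟩),
  (-3660728, ⟨0, -11, 0, 0, 2, 0, 0⟩),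
  (82196304, ⟨0, -10, 0, 0, 2, 0, 0⟩),
  (-63750184, ⟨0, -9, 0, 0, 2, 0, 0⟩),
  (337408712, ⟨0, -8, 0, 0, 2, 0, 0⟩),
  (-3946161336, ⟨0, -5, 0, 0, 2, 0, 0⟩),
  (4274272440, ⟨0, -4, 0, 0, 2, 0, 0⟩),
  (-419867800, ⟨0, -3, 0, 0, 2, 0, 0⟩),
  (-1722264672, ⟨0, -2, 0, 0, 2, 0, 0⟩),
  (84911202400, ⟨0, -1, 0, 0, 2, 0, 0⟩),
  (-65396353984, ⟨0, 0, 0, 0, 2, 0, 0⟩),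
  (12942736, ⟨0, -11, 0, 1, 1, 0, 0⟩),
  (-82196304, ⟨0, -10, 0, 1, 1, 0, 0⟩),
  (201152584, ⟨0, -9, 0, 1, 1, 0, 0⟩),
  (-440910392, ⟨0, -8, 0, 1, 1, 0, 0⟩),
  (1014451584, ⟨0, -7, 0, 1, 1, 0, 0⟩),
  (-2331181024, ⟨0, -6, 0, 1, 1, 0, 0⟩),
  (4799620976, ⟨0, -5, 0, 1, 1, 0, 0⟩),
  (-7123675976, ⟨0, -4, 0, 1, 1, 0, 0⟩),
  (6796722200, ⟨0, -3, 0, 1, 1, 0, 0⟩),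
  (-5046331704, ⟨0, -2, 0, 1, 1, 0, 0⟩),
  (-11705160, ⟨0, -11, 0, 2, 0, 0, 0⟩),
  (-170679816, ⟨0, -9, 0, 2, 0, 0, 0⟩),
  (129062752, ⟨0, -8, 0, 2, 0, 0, 0⟩),
  (-750137824, ⟨0, -7, 0, 2, 0, 0, 0⟩),
  (1356291808, ⟨0, -6, 0, 2, 0, 0, 0⟩),
  (-71325410016, ⟨0, -1, 0, 2, 0, 0, 0⟩),
  (55335376448, ⟨0, 0, 0, 2, 0, 0, 0⟩),
  (465696, ⟨1, -9, 1, 0, 0, 2, 0⟩),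
  (19167808, ⟨1, -8, 1, 0, 0, 2, 0⟩),
  (-117902800, ⟨1, -7, 1, 0, 0, 2, 0⟩),
  (241375632, ⟨1, -6, 1, 0, 0, 2, 0⟩),
  (-199055328, ⟨1, -5, 1, 0, 0, 2, 0⟩),
  (32866112, ⟨1, -4, 1, 0, 0, 2, 0⟩),
  (-14412272, ⟨1, -9, 0, 0, 1, 1, 0⟩),
  (165103280, ⟨1, -8, 0, 0, 1, 1, 0⟩),
  (-320837360, ⟨1, -7, 0, 0, 1, 1, 0⟩),
  (491438840, ⟨1, -6, 0, 0, 1, 1, 0⟩),
  (-625999216, ⟨1, -5, 0, 0, 1, 1, 0⟩),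
  (29520696, ⟨1, -4, 0, 0, 1, 1, 0⟩),
  (535380224, ⟨1, -3, 0, 0, 1, 1, 0⟩),
  (-770553808, ⟨1, -2, 0, 0, 1, 1, 0⟩),
  (13585792384, ⟨1, -1, 0, 0, 1, 1, 0⟩),
  (-10060977536, ⟨1, 0, 0, 0, 1, 1, 0⟩),
  (4274488, ⟨1, -11, 1, 0, 2, 0, 0⟩),
  (28522272, ⟨1, -10, 1, 0, 2, 0, 0⟩),
  (85860312, ⟨1, -9, 1, 0, 2, 0, 0⟩),
  (-42861136, ⟨1, -8, 1, 0, 2, 0, 0⟩),
  (-261852048, ⟨1, -7, 1, 0, 2, 0, 0⟩),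
  (119281600, ⟨1, -6, 1, 0, 2, 0, 0⟩),
  (125778952, ⟨1, -5, 1, 0, 2, 0, 0⟩),
  (-452532040, ⟨1, -4, 1, 0, 2, 0, 0⟩),
  (1698224048, ⟨1, -3, 1, 0, 2, 0, 0⟩),
  (16218792, ⟨1, -9, 0, 1, 0, 1, 0⟩),
  (-146142456, ⟨1, -8, 0, 1, 0, 1, 0⟩),
  (511871432, ⟨1, -7, 0, 1, 0, 1, 0⟩),
  (-824408728, ⟨1, -6, 0, 1, 0, 1, 0⟩),
  (515223736, ⟨1, -5, 0, 1, 0, 1, 0⟩),
  (95861544, ⟨1, -4, 0, 1, 0, 1, 0⟩),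
  (-404547384, ⟨1, -3, 0, 1, 0, 1, 0⟩),
  (279890752, ⟨1, -2, 0, 1, 0, 1, 0⟩),
  (-4274488, ⟨1, -11, 1, 1, 1, 0, 0⟩),
  (16023208, ⟨1, -10, 1, 1, 1, 0, 0⟩),
  (-8863312, ⟨1, -9, 1, 1, 1, 0, 0⟩),
  (-37254776, ⟨1, -8, 1, 1, 1, 0, 0⟩),
  (-108800216, ⟨1, -7, 1, 1, 1, 0, 0⟩),
  (398416392, ⟨1, -6, 1, 1, 1, 0, 0⟩),
  (-299029472, ⟨1, -5, 1, 1, 1, 0, 0⟩),
  (157378104, ⟨1, -4, 1, 1, 1, 0, 0⟩),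
  (-44545480, ⟨1, -10, 1, 2, 0, 0, 0⟩),
  (-72982368, ⟨1, -9, 1, 2, 0, 0, 0⟩),
  (66054264, ⟨1, -8, 1, 2, 0, 0, 0⟩),
  (282383320, ⟨1, -7, 1, 2, 0, 0, 0⟩),
  (-196440072, ⟨1, -6, 1, 2, 0, 0, 0⟩),
  (68862136, ⟨1, -5, 1, 2, 0, 0, 0⟩),
  (-17064632, ⟨1, -4, 1, 2, 0, 0, 0⟩),
  (-1698224048, ⟨1, -3, 1, 2, 0, 0, 0⟩),
  (6292504, ⟨2, -9, 0, 0, 1, 0, 0⟩),
  (-48616816, ⟨2, -8, 0, 0, 1, 0, 0⟩),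
  (-238170704, ⟨2, -7, 0, 0, 1, 0, 0⟩),
  (1178618128, ⟨2, -6, 0, 0, 1, 0, 0⟩),
  (-2668490976, ⟨2, -5, 0, 0, 1, 0, 0⟩),
  (2324191888, ⟨2, -4, 0, 0, 1, 0, 0⟩),
  (3591316472, ⟨2, -3, 0, 0, 1, 0, 0⟩),
  (-9360397088, ⟨2, -2, 0, 0, 1, 0, 0⟩),
  (-3498016, ⟨2, -9, 0, 1, 0, 0, 0⟩),
  (19021576, ⟨2, -8, 0, 1, 0, 0, 0⟩),
  (-59456400, ⟨2, -7, 0, 1, 0, 0, 0⟩),
  (-344111496, ⟨2, -6, 0, 1, 0, 0, 0⟩),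
  (2121999392, ⟨2, -5, 0, 1, 0, 0, 0⟩),
  (-2069406616, ⟨2, -4, 0, 1, 0, 0, 0⟩),
  (-4982516184, ⟨2, -3, 0, 1, 0, 0, 0⟩),
  (7590883232, ⟨2, -2, 0, 1, 0, 0, 0⟩),
  (-2942849192, ⟨2, 0, 0, 1, 0, 0, 0⟩),
  (346536, ⟨3, -11, 0, 0, 0, 0, 1⟩),
  (-842144, ⟨3, -9, 0, 0, 0, 0, 1⟩),
  (9714136, ⟨3, -8, 0, 0, 0, 0, 1⟩),
  (-16259288, ⟨3, -7, 0, 0, 0, 0, 1⟩),
  (20342648, ⟨3, -6, 0, 0, 0, 0, 1⟩),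
  (-55808, ⟨3, -11, 0, 0, 0, 2, 0⟩),
  (1654872, ⟨3, -9, 0, 0, 0, 2, 0⟩),
  (2830048, ⟨3, -8, 0, 0, 0, 2, 0⟩),
  (-39709840, ⟨3, -7, 0, 0, 0, 2, 0⟩),
  (110025632, ⟨3, -6, 0, 0, 0, 2, 0⟩),
  (-119244304, ⟨3, -5, 0, 0, 0, 2, 0⟩),
  (39942408, ⟨3, -4, 0, 0, 0, 2, 0⟩),
  (-15873136, ⟨3, -11, 0, 0, 2, 0, 0⟩),
  (177452304, ⟨3, -10, 0, 0, 2, 0, 0⟩),
  (-170916912, ⟨3, -9, 0, 0, 2, 0, 0⟩),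
  (-54538976, ⟨3, -8, 0, 0, 2, 0, 0⟩),
  (314957112, ⟨3, -7, 0, 0, 2, 0, 0⟩),
  (-289566312, ⟨3, -6, 0, 0, 2, 0, 0⟩),
  (59730240, ⟨3, -5, 0, 0, 2, 0, 0⟩),
  (37421960, ⟨3, -4, 0, 0, 2, 0, 0⟩),
  (146557480, ⟨3, -3, 0, 0, 2, 0, 0⟩),
  (400, ⟨3, -1, 0, 0, 2, 0, 0⟩),
  (18248328, ⟨3, -11, 0, 1, 1, 0, 0⟩),
  (-79886744, ⟨3, -10, 0, 1, 1, 0, 0⟩),
  (118647808, ⟨3, -9, 0, 1, 1, 0, 0⟩),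
  (120668192, ⟨3, -8, 0, 1, 1, 0, 0⟩),
  (-506290552, ⟨3, -7, 0, 1, 1, 0, 0⟩),
  (483482928, ⟨3, -6, 0, 1, 1, 0, 0⟩),
  (-241446048, ⟨3, -5, 0, 1, 1, 0, 0⟩),
  (-28727328, ⟨3, -4, 0, 1, 1, 0, 0⟩),
  (-97565560, ⟨3, -10, 0, 2, 0, 0, 0⟩),
  (64075712, ⟨3, -9, 0, 2, 0, 0, 0⟩),
  (-121069224, ⟨3, -3, 0, 2, 0, 0, 0⟩),
  (-336, ⟨3, -1, 0, 2, 0, 0, 0⟩),
  (-11930456, ⟨5, -9, 0, 0, 1, 0, 0⟩),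
  (134826992, ⟨5, -8, 0, 0, 1, 0, 0⟩),
  (-186426176, ⟨5, -7, 0, 0, 1, 0, 0⟩),
  (-238598560, ⟨5, -6, 0, 0, 1, 0, 0⟩),
  (697301064, ⟨5, -5, 0, 0, 1, 0, 0⟩),
  (-546626328, ⟨5, -4, 0, 0, 1, 0, 0⟩),
  (157431528, ⟨5, -2, 0, 0, 1, 0, 0⟩),
  (64, ⟨5, -1, 0, 0, 1, 0, 0⟩),
  (5589256, ⟨5, -9, 0, 1, 0, 0, 0⟩),
  (-29431272, ⟨5, -8, 0, 1, 0, 0, 0⟩),
  (50240016, ⟨5, -7, 0, 1, 0, 0, 0⟩),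
  (46487088, ⟨5, -6, 0, 1, 0, 0, 0⟩),
  (-252082904, ⟨5, -5, 0, 1, 0, 0, 0⟩),
  (323663680, ⟨5, -4, 0, 1, 0, 0, 0⟩)]

/-- the polynomial of the certificate (`8 D rr ^ 13` times the pointwise expression) -/
def P : PE := lhsH 11 13 2147483648 1109028416 (-6142075464) 2942849192 42256760 338499488 0 0 0 rows

set_option maxRecDepth 100000 in
lemma rows_ok_all : (rows.all fun x => x.2.ok 11) = true := by decide +kernel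

set_option maxRecDepth 100000 in
lemma rows_e_all : (rows.all fun x => decide (0 ≤ ((13 : ℕ) : ℤ) + x.2.e - 2)) = true := by
  decide +kernel

lemma rows_e : ∀ x ∈ rows, 0 ≤ ((13 : ℕ) : ℤ) + x.2.e - 2 := fun x hx =>
  of_decide_eq_true (List.all_eq_true.1 rows_e_all x hx)

/-- all rows are admissible -/
lemma rows_ok : ∀ cT ∈ rlH 2147483648 rows, cT.2.ok 11 = true := by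
  intro cT hcT
  unfold rlH at hcT
  obtain ⟨x, hx, rfl⟩ := List.mem_map.1 hcT
  exact List.all_eq_true.1 rows_ok_all x hx

/-- the pointwise inequality from the positivity of the polynomial -/
theorem pos_of {d : R9} (hd : d 0 < 1) (h : 0 ≤ PE.ev (vh d) P) :
    0 ≤ W9 (2147483648 / 2147483648) (1109028416 / 2147483648) (-6142075464 / 2147483648) (2942849192 / 2147483648) (42256760 / 2147483648) (338499488 / 2147483648) (0 / 2147483648) (0 / 2147483648) (0 / 2147483648) d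
      + hsum 11 (rlH 2147483648 rows) d := by
  have h1 := nonneg_of_lhsH hd 11 (K := 13) (D := 2147483648) (by norm_num) 2147483648 1109028416 (-6142075464) 2942849192 42256760 338499488 0 0 0 rows_e h
  push_cast at h1
  convert h1 using 2

end

end Vale.Agent.P224.PO.M11
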